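import Vale.Agent.Q183G.Code
import Mathlib.Data.Fintype.Order

/-!
A finite coloured graph criterion for congruence lattices of finite algebras and for intervals in
subgroup lattices of finite groups.
-/

namespace Vale.Agent.Results.P183.A1ColouredGraph

open Vale.Agent.P183 Vale.Agent.Q183G

theorem result :
    (∀ (L : Type) [Lattice L] [OrderBot L],
      -- (1) the criterion
      (Representable L ↔
        ∃ (V : Type) (_ : Finite V) (_ : Nonempty V) (c : V → V → L), Witness c) ∧
      -- (2) a witness gives a unary algebra on the same set, with at most `|V| ^ |V|` operations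
      (∀ (V : Type) [Finite V] [Nonempty V] (c : V → V → L), Witness c →
        Nat.card (alg c).index ≤ Nat.card V ^ Nat.card V ∧
        ∃ e : L ≃o (alg c).Con, ∀ a x y, (e a).1 x y ↔ c x y ≤ a) ∧
      -- (3) a representing algebra carries a witness
      (∀ (A : FiniteAlgebra) (e : L ≃o A.Con),
        ∃ c : A.carrier → A.carrier → L, Witness c ∧ ∀ a x y, (e a).1 x y ↔ c x y ≤ a) ∧
      -- (4) the sizes of witnesses and of representing algebras are the same
      (∀ n, RepOn L n ↔ 0 < n ∧ ∃ c : Fin n → Fin n → L, Witness c) ∧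
      (∀ n, IsLeast {k | RepOn L k} n ↔
        IsLeast {k | 0 < k ∧ ∃ c : Fin k → Fin k → L, Witness c} n) ∧
      -- (5) the Boolean search on `n` vertices is correct
      (∀ [Fintype L] [DecidableEq L] [DecidableLE L] (n : ℕ), search L n = true ↔ RepOn L n) ∧
      -- (6) the connectivity condition splits in two
      (∀ (V : Type) [Finite V] (P : (V → V) → Prop) (c : V → V → L), Colouring c →
        (Conn P c ↔ Split P c)) ∧
      -- (7) the criterion for intervals in subgroup lattices
      (GroupInterval L ↔
        ∃ (V : Type) (_ : Finite V) (_ : Nonempty V) (c : V → V → L), GroupWitness c)) ∧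
    -- (8) the problem asks whether every finite lattice has a witness
    ((∀ (L : Type) [Lattice L] [Finite L] [Nonempty L], Representable L) ↔
      ∀ (L : Type) [Lattice L] [OrderBot L] [Finite L],
        ∃ n, 0 < n ∧ ∃ c : Fin n → Fin n → L, Witness c) ∧
    -- (9) computability
    (∀ (L : Type) [LE L] [Finite L], ∃ n m, Nonempty (L ≃o Coded n m)) ∧
    (PrimrecPred fun z : (ℕ × ℕ) × ℕ => RepOn (Coded z.1.1 z.1.2) z.2) ∧
    (REPred fun p : ℕ × ℕ => Representable (Coded p.1 p.2)) ∧
    (REPred fun p : ℕ × ℕ => GroupInterval (Coded p.1 p.2)) ∧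
    ((ComputablePred fun p : ℕ × ℕ => Representable (Coded p.1 p.2)) ↔
      ∃ f : ℕ × ℕ → ℕ, Computable f ∧
        ∀ p : ℕ × ℕ, Representable (Coded p.1 p.2) → ∃ N ≤ f p, RepOn (Coded p.1 p.2) N) := by
  refine ⟨fun L _ _ => ⟨representable_iff_witness, fun V _ _ c h => ⟨card_index c, alg_iso h⟩,
    witness_of_iso, repOn_iff_witness, fun n => ?_, fun n => ?_,
    fun V _ P c h => conn_iff_split h, gi_iff_witness⟩, ⟨fun h L _ _ _ => ?_, fun h L _ _ _ => ?_⟩,
    exists_coded, primrec_repOn, re_representable, re_gi, computable_iff_bound⟩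
  · simp only [repOn_iff_witness]
  · rw [search, decide_eq_true_iff, repOn_iff_witness]
  · have : Nonempty L := ⟨⊥⟩
    exact (representable_iff.1 (h L)).imp fun n => (repOn_iff_witness n).1
  · have := Fintype.ofFinite L
    let _ := Fintype.toOrderBot L
    exact representable_iff.2 ((h L).imp fun n => (repOn_iff_witness n).2)

end Vale.Agent.Results.P183.A1ColouredGraph
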